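import Vale.Agent.P103S.Main

/-!
Shub's entropy conjecture fails for `C^1` maps: a `C^1` self-map of a compact boundaryless smooth
manifold (`S^1 × S^2 × S^2`) with zero topological entropy and with `2` in the spectrum of its
action on second real homology.
-/

namespace Vale.Agent.Results.P103.EntropyConjectureC1

open CategoryTheory AlgebraicTopology Vale.Agent.P103S
open scoped Manifold ContDiff
open Vale.Agent.P103S.Homology (S2)

noncomputable section

/-- The map induced by `f` on singular homology of degree `k` with real coefficients. -/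
def homologyMap (k : ℕ) (M : Type) [TopologicalSpace M] (f : C(M, M)) :
    Module.End ℝ (((singularHomologyFunctor (ModuleCat.{0} ℝ) k).obj
      (ModuleCat.of ℝ ℝ)).obj (TopCat.of M)) :=
  (((singularHomologyFunctor (ModuleCat.{0} ℝ) k).obj (ModuleCat.of ℝ ℝ)).map
    (TopCat.ofHom f : TopCat.of M ⟶ TopCat.of M)).hom

theorem result :
    ∃ (E H M : Type) (_ : NormedAddCommGroup E) (_ : NormedSpace ℝ E)
      (_ : FiniteDimensional ℝ E) (_ : TopologicalSpace H) (I : ModelWithCorners ℝ E H)
      (_ : I.Boundaryless) (_ : UniformSpace M) (_ : ChartedSpace H M) (_ : IsManifold I ∞ M)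
      (_ : T2Space M) (_ : CompactSpace M) (_ : Nonempty M) (f : C(M, M)),
      ContMDiff I I 1 f ∧ Dynamics.coverEntropy f Set.univ = 0 ∧
      ∃ (k : ℕ) (r : ℝ), r ∈ spectrum ℝ (homologyMap k M f) ∧
        (∃ L, Module.End.HasEigenvector (homologyMap k M f).dualMap r L) ∧
        Dynamics.coverEntropy f Set.univ < ((Real.log |r| : ℝ) : EReal) := by
  obtain ⟨B, mmin, Wd, s, hs, hc, hsum⟩ := exists_params
  have hf := contMDiff_fMap Wd hs hc
  have : Nonempty S2 := (NormedSpace.sphere_nonempty.2 zero_le_one).to_subtype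
  let f : C(Circle × S2 × S2, Circle × S2 × S2) := ⟨fMap Wd s, hf.continuous⟩
  have hp : prU.comp secU = ContinuousMap.id S2 := ContinuousMap.ext fun _ => rfl
  have hh := homotopic_fMap Wd hs hc hf.continuous
  have he : Dynamics.coverEntropy f Set.univ = 0 :=
    entropy_fMap Wd hs hc (orbit_times Wd hs hsum)
  obtain ⟨L, hL0, hL⟩ := Homology.exists_eigen_functional
    (M := TopCat.of (Circle × S2 × S2)) prU secU hp f hh
  have hne : L.hom ≠ 0 := fun h => hL0 (ModuleCat.hom_ext h)
  refine ⟨_, _, Circle × S2 × S2, inferInstance, inferInstance, inferInstance, inferInstance,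
    (𝓡 1).prod ((𝓡 2).prod (𝓡 2)), inferInstance, inferInstance, inferInstance, inferInstance,
    inferInstance, inferInstance, inferInstance, f, hf, he, 2, 2,
    Homology.two_mem_spectrum (M := TopCat.of (Circle × S2 × S2)) prU secU hp f hh,
    ⟨L.hom, Module.End.mem_eigenspace_iff.2 (congrArg ModuleCat.Hom.hom hL), hne⟩, ?_⟩
  rw [he]
  exact_mod_cast Real.log_pos (by norm_num : (1:ℝ) < |2|)

end

end Vale.Agent.Results.P103.EntropyConjectureC1
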